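import Mathlib

/-!
# Linear circuits for the discrete Fourier transform

A linear circuit on `n` inputs is a straight-line program.  Its values live at nodes numbered by
natural numbers: node `i < n` holds the input `x i`, node `n` holds the constant `0`, and gate number
`k` of the program stores its result at node `n + 1 + k`.  Each gate reads nodes computed before it;
a node that has not been computed yet reads as the constant `0`.
-/

namespace Vale.Agent.Lib.P344

/-- A gate of a linear circuit: `u + v`, `u - v` or `c * u`, for a fixed complex constant `c`.
The arguments are node numbers. -/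
inductive Gate where
  | add (u v : ℕ) : Gate
  | sub (u v : ℕ) : Gate
  | smul (c : ℂ) (u : ℕ) : Gate

/-- The value of a gate, given the values `σ` of the nodes computed so far. -/
def Gate.value (σ : ℕ → ℂ) : Gate → ℂ
  | .add u v => σ u + σ v
  | .sub u v => σ u - σ v
  | .smul c u => c * σ u

/-- Run a list of gates: the first gate stores its value at node `k`, the next at node `k + 1`, ... -/
def runGates : List Gate → ℕ → (ℕ → ℂ) → (ℕ → ℂ)
  | [], _, σ => σ
  | g :: gs, k, σ => runGates gs (k + 1) (Function.update σ k (g.value σ))

/-- A linear circuit with `n` inputs and `n` designated outputs. -/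
structure Circuit (n : ℕ) where
  /-- the gates, in order of evaluation -/
  gates : List Gate
  /-- the node number of each output -/
  out : Fin n → ℕ

/-- The node values before any gate has been evaluated. -/
def initState (n : ℕ) (x : Fin n → ℂ) : ℕ → ℂ :=
  fun i => if h : i < n then x ⟨i, h⟩ else 0

/-- The value of each node of the circuit on the input `x`. -/
def Circuit.value {n : ℕ} (C : Circuit n) (x : Fin n → ℂ) : ℕ → ℂ :=
  runGates C.gates (n + 1) (initState n x)

/-- The circuit computes the linear map `x ↦ M x` exactly. -/
def Circuit.Computes {n : ℕ} (C : Circuit n) (M : Matrix (Fin n) (Fin n) ℂ) : Prop :=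
  ∀ (x : Fin n → ℂ) (j : Fin n), C.value x (C.out j) = M.mulVec x j

/-- The unnormalized discrete Fourier matrix `F_n = (exp (2 π i j k / n))`. -/
noncomputable def dft (n : ℕ) : Matrix (Fin n) (Fin n) ℂ :=
  fun j k => Complex.exp (2 * Real.pi * Complex.I * (j : ℕ) * (k : ℕ) / n)

/-- The price of a gate in Morgenstern's count: an addition or subtraction costs `1`, a scalar
multiplication by `c` costs `log₂ (max 1 |c|)`. -/
noncomputable def Gate.price : Gate → ℝ
  | .add _ _ => 1
  | .sub _ _ => 1
  | .smul c _ => Real.logb 2 (max 1 ‖c‖)

/-- The total price of the gates at positions not in `T` (the gates of a list are numbered from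
`p` on). -/
noncomputable def cost (T : Finset ℕ) : ℕ → List Gate → ℝ
  | _, [] => 0
  | p, g :: gs => (if p ∈ T then 0 else g.price) + cost T (p + 1) gs

/-- A scalar gate whose coefficient has modulus greater than `B`. -/
def Gate.IsBig (B : ℝ) : Gate → Prop
  | .add _ _ => False
  | .sub _ _ => False
  | .smul c _ => B < ‖c‖

open Classical in
/-- The number of gates of the circuit that are scalar gates with a coefficient of modulus greater
than `B`. -/
noncomputable def bigCount (B : ℝ) (gs : List Gate) : ℕ :=
  gs.countP fun g => decide (g.IsBig B)

/-- The number of addition and subtraction gates in a list of gates. -/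
def addCount : List Gate → ℕ
  | [] => 0
  | .smul _ _ :: gs => addCount gs
  | _ :: gs => addCount gs + 1

/-- The gain of a gate, given the gains `ρ` of the nodes computed so far: the maximum of the two
gains for an addition or a subtraction, and `|c|` times the gain for a scalar gate. -/
noncomputable def Gate.gain (ρ : ℕ → ℝ) : Gate → ℝ
  | .add u v => max (ρ u) (ρ v)
  | .sub u v => max (ρ u) (ρ v)
  | .smul c u => ‖c‖ * ρ u

/-- Propagate gains through a list of gates. -/
noncomputable def runGain : List Gate → ℕ → (ℕ → ℝ) → (ℕ → ℝ)
  | [], _, ρ => ρ
  | g :: gs, k, ρ => runGain gs (k + 1) (Function.update ρ k (g.gain ρ))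

/-- The gain of each node of the circuit: inputs have gain `1` and all other nodes start at `0`.
So the gain of a node is the largest product of the moduli of the scalar coefficients along a
directed path from an input to that node, and `0` if no input reaches the node. -/
noncomputable def Circuit.gain {n : ℕ} (C : Circuit n) : ℕ → ℝ :=
  runGain C.gates (n + 1) fun i => if i < n then 1 else 0

end Vale.Agent.Lib.P344
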