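import Vale.Agent.Lib.P344.Defs

/-! Orthogonality of the rows and columns of the Fourier matrix. -/

namespace Vale.Agent.Lib.P344

open Matrix
open scoped ComplexConjugate

variable {n : ℕ}

theorem dft_apply_eq_pow (_hn : 0 < n) (j k : Fin n) :
    dft n j k = Complex.exp (2 * Real.pi * Complex.I / n) ^ ((j : ℕ) * (k : ℕ)) := by
  unfold dft
  rw [← Complex.exp_nat_mul]
  congr 1
  push_cast
  ring

theorem dft_mul_conjTranspose (hn : 0 < n) : dft n * (dft n)ᴴ = (n : ℂ) • (1 : Matrix _ _ ℂ) := by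
  have hn0 : (n : ℂ) ≠ 0 := by exact_mod_cast hn.ne'
  set ζ := Complex.exp (2 * Real.pi * Complex.I / n) with hζ
  have hprim : IsPrimitiveRoot ζ n := Complex.isPrimitiveRoot_exp n hn.ne'
  have hnorm : ‖ζ‖ = 1 := hprim.norm'_eq_one hn.ne'
  have hconj : ζ * conj ζ = 1 := by
    rw [Complex.mul_conj, Complex.normSq_eq_norm_sq, hnorm]; simp
  ext j j'
  simp only [Matrix.mul_apply, Matrix.conjTranspose_apply, Complex.star_def, Matrix.smul_apply,
    smul_eq_mul]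
  set w := ζ ^ (j : ℕ) * conj ζ ^ (j' : ℕ) with hw
  have hterm : ∀ k : Fin n, dft n j k * conj (dft n j' k) = w ^ (k : ℕ) := by
    intro k
    rw [dft_apply_eq_pow hn, dft_apply_eq_pow hn, map_pow, ← hζ, hw, mul_pow,
      pow_mul, pow_mul]
  simp only [hterm]
  rw [Fin.sum_univ_eq_sum_range (fun k => w ^ k) n]
  by_cases hjj : j = j'
  · subst hjj
    have hw1 : w = 1 := by
      rw [hw, ← mul_pow, hconj, one_pow]
    simp [hw1]
  · have hwn : w ^ n = 1 := by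
      rw [hw, mul_pow, ← pow_mul, ← pow_mul, mul_comm (j : ℕ), mul_comm (j' : ℕ), pow_mul, pow_mul,
        hprim.pow_eq_one, ← map_pow, hprim.pow_eq_one]
      simp
    have hw1 : w ≠ 1 := by
      intro h
      have h2 : ζ ^ (j : ℕ) = ζ ^ (j' : ℕ) := by
        calc ζ ^ (j : ℕ) = ζ ^ (j : ℕ) * (conj ζ ^ (j' : ℕ) * ζ ^ (j' : ℕ)) := by
              rw [← mul_pow, mul_comm (conj ζ), hconj, one_pow, mul_one]
          _ = (ζ ^ (j : ℕ) * conj ζ ^ (j' : ℕ)) * ζ ^ (j' : ℕ) := by ring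
          _ = ζ ^ (j' : ℕ) := by rw [← hw, h, one_mul]
      have := hprim.pow_inj j.isLt j'.isLt h2
      exact hjj (Fin.ext this)
    have hsum : ∑ k ∈ Finset.range n, w ^ k = 0 := by
      have := geom_sum_mul w n
      rw [hwn, sub_self] at this
      exact (mul_eq_zero.mp this).resolve_right (sub_ne_zero.mpr hw1)
    rw [hsum]
    simp [hjj]

theorem conjTranspose_mul_dft (hn : 0 < n) : (dft n)ᴴ * dft n = (n : ℂ) • (1 : Matrix _ _ ℂ) := by
  have hn0 : (n : ℂ) ≠ 0 := by exact_mod_cast hn.ne'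
  have h1 : dft n * ((n : ℂ)⁻¹ • (dft n)ᴴ) = 1 := by
    rw [Matrix.mul_smul, dft_mul_conjTranspose hn, smul_smul, inv_mul_cancel₀ hn0, one_smul]
  have h2 := mul_eq_one_comm.mp h1
  rw [Matrix.smul_mul] at h2
  calc (dft n)ᴴ * dft n = (n : ℂ) • ((n : ℂ)⁻¹ • ((dft n)ᴴ * dft n)) := by
        rw [smul_smul, mul_inv_cancel₀ hn0, one_smul]
    _ = (n : ℂ) • (1 : Matrix _ _ ℂ) := by rw [h2]

end Vale.Agent.Lib.P344
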