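import Vale.Agent.Lib.P344.Tradeoff

/-! The gain inequality. -/

namespace Vale.Agent.Lib.P344

open Matrix

variable {r : ℕ}

theorem Gate.gain_nonneg (g : Gate) (ρ : ℕ → ℝ) (h : ∀ i, 0 ≤ ρ i) : 0 ≤ g.gain ρ := by
  cases g with
  | add u v => exact le_max_of_le_left (h u)
  | sub u v => exact le_max_of_le_left (h u)
  | smul c u => exact mul_nonneg (norm_nonneg _) (h u)

theorem runGain_nonneg (gs : List Gate) (k : ℕ) (ρ : ℕ → ℝ) (h : ∀ i, 0 ≤ ρ i) (i : ℕ) :
    0 ≤ runGain gs k ρ i := by
  induction gs generalizing k ρ with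
  | nil => exact h i
  | cons g gs ih =>
    apply ih
    intro j
    by_cases hj : j = k
    · subst hj; simpa using g.gain_nonneg ρ h
    · simpa [Function.update_of_ne hj] using h j

theorem potential_gain (gs : List Gate) (k : ℕ) (σ : ℕ → Fin r → ℂ) (w : ℕ → ℝ) (G : ℝ)
    (hw : ∀ i, 0 ≤ w i) (hG : 0 ≤ G)
    (H : ∀ f : Fin r → ℕ, ‖(rows σ f).det‖ ≤ G * ∏ i, w (f i)) (f : Fin r → ℕ) :
    ‖(rows (runV gs k σ) f).det‖ ≤ G * 2 ^ addCount gs * ∏ i, runGain gs k w (f i) := by
  induction gs generalizing k σ w G with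
  | nil =>
    simp only [runV, runGain, addCount, pow_zero, mul_one]
    exact H f
  | cons g gs ih =>
    have hnn := g.gain_nonneg w hw
    have hw' : ∀ i, 0 ≤ Function.update w k (g.gain w) i := by
      intro j
      by_cases hj : j = k
      · subst hj; simpa using hnn
      · simpa [Function.update_of_ne hj] using hw j
    cases g with
    | add u v =>
      have step := potential_step σ w G hw hG H (Gate.add u v) k (Gate.gain w (Gate.add u v)) 2 hnn
        (by norm_num)
        (by
          intro a b h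
          rcases h with h | h
          · cases h; exact ⟨le_rfl, le_max_left _ _, le_max_right _ _⟩
          · cases h)
        (by intro c a h; cases h)
      have := ih (k + 1) _ _ _ hw' (by positivity) step
      simp only [runV, runGain, addCount]
      calc _ ≤ _ := this
        _ = _ := by rw [pow_succ]; ring
    | sub u v =>
      have step := potential_step σ w G hw hG H (Gate.sub u v) k (Gate.gain w (Gate.sub u v)) 2 hnn
        (by norm_num)
        (by
          intro a b h
          rcases h with h | h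
          · cases h
          · cases h; exact ⟨le_rfl, le_max_left _ _, le_max_right _ _⟩)
        (by intro c a h; cases h)
      have := ih (k + 1) _ _ _ hw' (by positivity) step
      simp only [runV, runGain, addCount]
      calc _ ≤ _ := this
        _ = _ := by rw [pow_succ]; ring
    | smul c u =>
      have step := potential_step σ w G hw hG H (Gate.smul c u) k (Gate.gain w (Gate.smul c u)) 1
        hnn le_rfl
        (by
          intro a b h
          rcases h with h | h <;> cases h)
        (by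
          intro d a h
          cases h
          simp [Gate.gain])
      have := ih (k + 1) _ _ _ hw' (by positivity) step
      simp only [runV, runGain, addCount]
      calc _ ≤ _ := this
        _ = _ := by ring

/-- The gain inequality in multiplicative form. -/
theorem gain_product {n : ℕ} (C : Circuit n) (hC : C.Computes (dft n)) (I : Finset (Fin n)) :
    (n : ℝ) ^ I.card ≤ 4 ^ addCount C.gates * ∏ j ∈ I, C.gain (C.out j) ^ 2 := by
  classical
  rcases Nat.eq_zero_or_pos n with hn0 | hn
  · subst hn0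
    have hI : I = ∅ := Finset.eq_empty_of_isEmpty I
    subst hI
    simp only [Finset.card_empty, pow_zero, Finset.prod_empty, mul_one]
    exact one_le_pow₀ (by norm_num)
  set r := I.card with hr
  have hn' : (0 : ℝ) < n := by exact_mod_cast hn
  let e : Fin r → Fin n := fun c => ((I.equivFin.symm c : I) : Fin n)
  have he : Function.Injective e := by
    intro a b h
    exact I.equivFin.symm.injective (Subtype.ext h)
  let F := dft n
  let P : Matrix (Fin n) (Fin r) ℂ := Fᴴ.submatrix id e
  have hPP : Pᴴ * P = (n : ℂ) • (1 : Matrix (Fin r) (Fin r) ℂ) := by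
    have h1 : Pᴴ * P = (F * Fᴴ).submatrix e e := by
      ext a b
      simp [P, Matrix.mul_apply, Matrix.submatrix_apply]
    rw [h1, dft_mul_conjTranspose hn]
    ext a b
    by_cases hab : a = b
    · subst hab; simp
    · have : e a ≠ e b := fun h => hab (he h)
      simp [Matrix.one_apply, this, hab]
  have hdetPP : (Pᴴ * P).det = (n : ℂ) ^ r := by
    rw [hPP, Matrix.det_smul]
    simp
  have hne : (Pᴴ * P).det ≠ 0 := by
    rw [hdetPP]
    exact pow_ne_zero _ (by exact_mod_cast hn.ne')
  obtain ⟨g₀, hmax, hpos, hlow⟩ := exists_max_selection hne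
  set D := ‖(P.submatrix g₀ id).det‖ with hD
  have hrowsum : rowSum P = (r.factorial : ℝ) * (n : ℝ) ^ r := by
    apply Complex.ofReal_injective
    rw [rowSum_eq, hdetPP]
    push_cast
    rfl
  have hfact : (0 : ℝ) < r.factorial := by exact_mod_cast r.factorial_pos
  have hD2 : D ^ 2 ≤ (n : ℝ) ^ r := by
    rw [hrowsum] at hlow
    exact le_of_mul_le_mul_left hlow hfact
  -- the forms
  let σ0 : ℕ → Fin r → ℂ := fun i => if h : i < n then P ⟨i, h⟩ else 0
  let w0 : ℕ → ℝ := fun i => if i < n then 1 else 0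
  have hw0 : ∀ i, 0 ≤ w0 i := by
    intro i
    simp only [w0]
    split_ifs <;> norm_num
  have hinit : ∀ f : Fin r → ℕ, ‖(rows σ0 f).det‖ ≤ D * ∏ i, w0 (f i) := by
    intro f
    by_cases hf : ∀ i, f i < n
    · have h1 : rows σ0 f = P.submatrix (fun i => ⟨f i, hf i⟩) id := by
        ext a c
        simp [rows, σ0, hf a]
      have h2 : ∏ i, w0 (f i) = 1 := by
        apply Finset.prod_eq_one
        intro i _
        simp [w0, hf i]
      rw [h1, h2, mul_one]
      exact hmax _
    · simp only [not_forall, not_lt] at hf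
      obtain ⟨i, hi⟩ := hf
      have : (rows σ0 f).det = 0 := by
        apply Matrix.det_eq_zero_of_row_eq_zero i
        intro c
        simp [rows, σ0, not_lt.mpr hi]
      rw [this, norm_zero]
      exact mul_nonneg hpos.le (Finset.prod_nonneg fun a _ => hw0 _)
  let Φ := runV C.gates (n + 1) σ0
  have hΦ : ∀ i c, Φ i c = C.value (fun k => P k c) i := by
    intro i c
    have h1 := runV_map (LinearMap.proj (R := ℂ) (φ := fun _ : Fin r => ℂ) c) C.gates (n + 1) σ0 i
    simp only [LinearMap.proj_apply] at h1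
    have h2 : (fun j => σ0 j c) = initState n (fun k => P k c) := by
      funext j
      simp only [σ0, initState]
      split_ifs with h <;> simp
    rw [h2, ← runGates_eq_runV] at h1
    exact h1
  have hQ : ∀ j c, Φ (C.out j) c = (F * P) j c := by
    intro j c
    rw [hΦ, hC]
    simp only [Matrix.mul_apply, Matrix.mulVec, dotProduct, F]
  have hpot := potential_gain C.gates (n + 1) σ0 w0 D hw0 hpos.le hinit (fun c => C.out (e c))
  have hsub : rows Φ (fun c => C.out (e c)) = (n : ℂ) • (1 : Matrix (Fin r) (Fin r) ℂ) := by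
    ext a b
    have h1 : rows Φ (fun c => C.out (e c)) a b = (F * Fᴴ) (e a) (e b) := by
      show Φ (C.out (e a)) b = _
      rw [hQ]
      simp [P, Matrix.mul_apply, Matrix.submatrix_apply]
    rw [h1, dft_mul_conjTranspose hn]
    by_cases hab : a = b
    · subst hab; simp
    · have : e a ≠ e b := fun h => hab (he h)
      simp [Matrix.one_apply, this, hab]
  have hdet : ‖(rows Φ (fun c => C.out (e c))).det‖ = (n : ℝ) ^ r := by
    rw [hsub, Matrix.det_smul]
    simp
  rw [hdet] at hpot
  have hprod : ∏ c, runGain C.gates (n + 1) w0 (C.out (e c)) = ∏ j ∈ I, C.gain (C.out j) := by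
    have h1 : ∏ c : Fin r, runGain C.gates (n + 1) w0 (C.out (e c)) =
        ∏ j : I, runGain C.gates (n + 1) w0 (C.out j) :=
      Equiv.prod_comp I.equivFin.symm (fun j : I => runGain C.gates (n + 1) w0 (C.out j))
    rw [h1, Finset.prod_coe_sort I (fun j => runGain C.gates (n + 1) w0 (C.out j))]
    rfl
  rw [hprod] at hpot
  set Pg := ∏ j ∈ I, C.gain (C.out j) with hPg
  have hPgnn : 0 ≤ Pg := Finset.prod_nonneg fun j _ => runGain_nonneg _ _ _ hw0 _
  have hsq : ((n : ℝ) ^ r) ^ 2 ≤ (D * 2 ^ addCount C.gates * Pg) ^ 2 := by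
    gcongr
  have hprod2 : ∏ j ∈ I, C.gain (C.out j) ^ 2 = Pg ^ 2 := by
    rw [hPg, Finset.prod_pow]
  rw [hprod2]
  have h4 : (4 : ℝ) ^ addCount C.gates = (2 ^ addCount C.gates) ^ 2 := by
    rw [← pow_mul, mul_comm, pow_mul]
    norm_num
  rw [h4]
  have hnr : 0 < (n : ℝ) ^ r := by positivity
  have : (n : ℝ) ^ r * (n : ℝ) ^ r ≤ (n : ℝ) ^ r * ((2 ^ addCount C.gates) ^ 2 * Pg ^ 2) := by
    calc (n : ℝ) ^ r * (n : ℝ) ^ r = ((n : ℝ) ^ r) ^ 2 := by ring
      _ ≤ (D * 2 ^ addCount C.gates * Pg) ^ 2 := hsq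
      _ = D ^ 2 * ((2 ^ addCount C.gates) ^ 2 * Pg ^ 2) := by ring
      _ ≤ (n : ℝ) ^ r * ((2 ^ addCount C.gates) ^ 2 * Pg ^ 2) := by
          gcongr
  exact le_of_mul_le_mul_left this hnr

/-- The gain inequality: for every set `I` of outputs. -/
theorem gain_log {n : ℕ} (C : Circuit n) (hC : C.Computes (dft n)) (I : Finset (Fin n)) :
    (I.card : ℝ) / 2 * Real.logb 2 n ≤
      addCount C.gates + ∑ j ∈ I, Real.logb 2 (C.gain (C.out j)) := by
  classical
  have hmain := gain_product C hC I
  rcases I.eq_empty_or_nonempty with rfl | hne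
  · simp
  obtain ⟨j₀, hj₀⟩ := hne
  have hn : 0 < n := lt_of_le_of_lt (Nat.zero_le _) j₀.isLt
  have hn' : (0 : ℝ) < n := by exact_mod_cast hn
  have hlhs : 0 < (n : ℝ) ^ I.card := by positivity
  have hprodne : ∏ j ∈ I, C.gain (C.out j) ^ 2 ≠ 0 := by
    intro h
    rw [h, mul_zero] at hmain
    linarith
  have hgne : ∀ j ∈ I, C.gain (C.out j) ≠ 0 := by
    intro j hj h
    apply hprodne
    apply Finset.prod_eq_zero hj
    rw [h]
    ring
  have h4 : (4 : ℝ) ^ addCount C.gates ≠ 0 := by positivity
  have hlog := Real.logb_le_logb_of_le (b := 2) (by norm_num) hlhs hmain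
  rw [Real.logb_pow, Real.logb_mul h4 hprodne, Real.logb_pow, Real.logb_prod] at hlog
  · have h5 : Real.logb 2 (4 : ℝ) = 2 := by
      have : (4 : ℝ) = 2 ^ 2 := by norm_num
      rw [this, Real.logb_pow]
      simp
    have h6 : ∑ j ∈ I, Real.logb 2 (C.gain (C.out j) ^ 2) =
        2 * ∑ j ∈ I, Real.logb 2 (C.gain (C.out j)) := by
      rw [Finset.mul_sum]
      apply Finset.sum_congr rfl
      intro j _
      rw [Real.logb_pow]
      norm_num
    rw [h5, h6] at hlog
    have : (I.card : ℝ) * Real.logb 2 n / 2 ≤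
        (addCount C.gates : ℝ) + ∑ j ∈ I, Real.logb 2 (C.gain (C.out j)) := by
      linarith
    calc (I.card : ℝ) / 2 * Real.logb 2 n = (I.card : ℝ) * Real.logb 2 n / 2 := by ring
      _ ≤ _ := this
  · intro j hj
    exact pow_ne_zero 2 (hgne j hj)

/-- Few outputs can have gain at most `n ^ (1/2 - θ)`. -/
theorem few_low_gain {n : ℕ} (C : Circuit n) (hC : C.Computes (dft n)) (θ : ℝ) :
    (((Finset.univ.filter fun j : Fin n => C.gain (C.out j) ≤ (n : ℝ) ^ (1 / 2 - θ)).card : ℕ) : ℝ) *
      (θ * Real.logb 2 n) ≤ addCount C.gates := by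
  classical
  set I := Finset.univ.filter fun j : Fin n => C.gain (C.out j) ≤ (n : ℝ) ^ (1 / 2 - θ) with hI
  have hmain := gain_log C hC I
  rcases I.eq_empty_or_nonempty with h | hne
  · rw [h]
    simp
  obtain ⟨j₀, hj₀⟩ := hne
  have hn : 0 < n := lt_of_le_of_lt (Nat.zero_le _) j₀.isLt
  have hn' : (0 : ℝ) < n := by exact_mod_cast hn
  have hprod := gain_product C hC I
  have hlhs : 0 < (n : ℝ) ^ I.card := by positivity
  have hprodne : ∏ j ∈ I, C.gain (C.out j) ^ 2 ≠ 0 := by
    intro h
    rw [h, mul_zero] at hprod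
    linarith
  have hgne : ∀ j ∈ I, C.gain (C.out j) ≠ 0 := by
    intro j hj h
    apply hprodne
    apply Finset.prod_eq_zero hj
    rw [h]
    ring
  have hgpos : ∀ j ∈ I, 0 < C.gain (C.out j) := by
    intro j hj
    have h1 : 0 ≤ C.gain (C.out j) := by
      apply runGain_nonneg
      intro i
      split_ifs <;> norm_num
    exact lt_of_le_of_ne h1 (hgne j hj).symm
  have hsum : ∑ j ∈ I, Real.logb 2 (C.gain (C.out j)) ≤
      (I.card : ℝ) * ((1 / 2 - θ) * Real.logb 2 n) := by
    rw [← nsmul_eq_mul]
    apply Finset.sum_le_card_nsmul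
    intro j hj
    have hle : C.gain (C.out j) ≤ (n : ℝ) ^ (1 / 2 - θ) := (Finset.mem_filter.mp hj).2
    have := Real.logb_le_logb_of_le (b := 2) (by norm_num) (hgpos j hj) hle
    rwa [Real.logb_rpow_eq_mul_logb_of_pos hn'] at this
  nlinarith

end Vale.Agent.Lib.P344
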