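import Vale.Agent.Lib.P344.Threshold

/-! Rescaling a circuit: all coefficients become at most `1` in modulus, except `n` final ones. -/

namespace Vale.Agent.Lib.P344

/-- The new place of node `u`. -/
def newNode (n u : ℕ) : ℕ := if u ≤ n then u else n + 3 * (u - n)

/-- The level of node `u`: gate number `p` has level `p + 1`, inputs and the constant have level 0. -/
def lev (n u : ℕ) : ℕ := if u ≤ n then 0 else u - n

/-- The rescaling coefficient for reading node `u` at gate number `p`. -/
noncomputable def coef (δ : ℝ) (n p u : ℕ) : ℂ := ((δ ^ (max 1 (p + 1 - lev n u)) : ℝ) : ℂ)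

/-- The three gates replacing gate number `p`. -/
noncomputable def expandGate (δ : ℝ) (n p : ℕ) : Gate → List Gate
  | .add u v => [.smul (coef δ n p u) (newNode n u), .smul (coef δ n p v) (newNode n v),
      .add (n + 1 + 3 * p) (n + 2 + 3 * p)]
  | .sub u v => [.smul (coef δ n p u) (newNode n u), .smul (coef δ n p v) (newNode n v),
      .sub (n + 1 + 3 * p) (n + 2 + 3 * p)]
  | .smul c u => [.smul (c * coef δ n p u) (newNode n u), .smul 0 n,
      .add (n + 1 + 3 * p) (n + 2 + 3 * p)]

/-- Expand all gates. -/
noncomputable def expandAll (δ : ℝ) (n : ℕ) : ℕ → List Gate → List Gate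
  | _, [] => []
  | p, g :: gs => expandGate δ n p g ++ expandAll δ n (p + 1) gs

theorem runGates_append (a b : List Gate) (k : ℕ) (σ : ℕ → ℂ) :
    runGates (a ++ b) k σ = runGates b (k + a.length) (runGates a k σ) := by
  induction a generalizing k σ with
  | nil => rfl
  | cons g a ih =>
    simp only [List.cons_append, runGates, List.length_cons]
    rw [ih]
    congr 1
    omega

/-- The invariant relating the old run to the new run after `p` gates. -/
structure Inv (δ : ℝ) (n p : ℕ) (σ σ' : ℕ → ℂ) : Prop where
  low : ∀ u, u < n + 1 + p → σ' (newNode n u) = ((δ ^ lev n u : ℝ) : ℂ) * σ u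
  high : ∀ u, n + 1 + p ≤ u → σ u = 0
  fresh : ∀ i, n + 1 + 3 * p ≤ i → σ' i = 0

theorem Inv.read {δ : ℝ} {n p : ℕ} {σ σ' : ℕ → ℂ} (h : Inv δ n p σ σ') (u : ℕ) :
    coef δ n p u * σ' (newNode n u) = ((δ ^ (p + 1) : ℝ) : ℂ) * σ u := by
  by_cases hu : u < n + 1 + p
  · rw [h.low u hu, coef, ← mul_assoc, ← Complex.ofReal_mul, ← pow_add]
    congr 3
    unfold lev
    split_ifs with h2 <;> omega
  · have h1 := h.high u (by omega)
    have h2 : σ' (newNode n u) = 0 := by
      apply h.fresh
      unfold newNode
      split_ifs <;> omega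
    rw [h1, h2]
    simp

theorem newNode_ne_one (n p u : ℕ) : newNode n u ≠ n + 1 + 3 * p := by
  unfold newNode
  split_ifs <;> omega

theorem Inv.step {δ : ℝ} {n p : ℕ} {σ σ' : ℕ → ℂ} (h : Inv δ n p σ σ') (g : Gate) :
    Inv δ n (p + 1) (Function.update σ (n + 1 + p) (g.value σ))
      (runGates (expandGate δ n p g) (n + 1 + 3 * p) σ') := by
  -- the value of the new result node
  have key : ∃ A B R : ℂ, runGates (expandGate δ n p g) (n + 1 + 3 * p) σ' =
        Function.update (Function.update (Function.update σ' (n + 1 + 3 * p) A)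
          (n + 1 + 3 * p + 1) B) (n + 1 + 3 * p + 1 + 1) R ∧
      R = ((δ ^ (p + 1) : ℝ) : ℂ) * g.value σ := by
    have e1 : n + 1 + 3 * p + 1 ≠ n + 1 + 3 * p := by omega
    have e2 : n + 2 + 3 * p = n + 1 + 3 * p + 1 := by omega
    cases g with
    | add u v =>
      refine ⟨_, _, _, rfl, ?_⟩
      simp only [Gate.value]
      rw [e2, Function.update_self, Function.update_of_ne e1.symm, Function.update_self,
        Function.update_of_ne (newNode_ne_one n p v), h.read u, h.read v]
      ring
    | sub u v =>
      refine ⟨_, _, _, rfl, ?_⟩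
      simp only [Gate.value]
      rw [e2, Function.update_self, Function.update_of_ne e1.symm, Function.update_self,
        Function.update_of_ne (newNode_ne_one n p v), h.read u, h.read v]
      ring
    | smul c u =>
      refine ⟨_, _, _, rfl, ?_⟩
      simp only [Gate.value]
      rw [e2, Function.update_self, Function.update_of_ne e1.symm, Function.update_self,
        mul_assoc, h.read u]
      simp only [zero_mul, add_zero]
      ring
  obtain ⟨A, B, R, hrun, hR⟩ := key
  rw [hrun]
  have e3 : n + 1 + 3 * p + 1 + 1 = newNode n (n + 1 + p) := by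
    unfold newNode
    rw [if_neg (by omega)]
    omega
  refine ⟨?_, ?_, ?_⟩
  · intro u hu
    by_cases hup : u = n + 1 + p
    · subst hup
      rw [← e3, Function.update_self, Function.update_self, hR]
      congr 3
      unfold lev
      rw [if_neg (by omega)]
      omega
    · have hlt : u < n + 1 + p := by omega
      have hb : newNode n u ≤ n + 3 * p := by
        unfold newNode
        split_ifs <;> omega
      rw [Function.update_of_ne (by omega), Function.update_of_ne (by omega),
        Function.update_of_ne (by omega), Function.update_of_ne hup]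
      exact h.low u hlt
  · intro u hu
    rw [Function.update_of_ne (by omega)]
    exact h.high u (by omega)
  · intro i hi
    rw [Function.update_of_ne (by omega), Function.update_of_ne (by omega),
      Function.update_of_ne (by omega)]
    exact h.fresh i (by omega)

theorem length_expandGate (δ : ℝ) (n p : ℕ) (g : Gate) : (expandGate δ n p g).length = 3 := by
  cases g <;> rfl

theorem length_expandAll (δ : ℝ) (n p : ℕ) (gs : List Gate) :
    (expandAll δ n p gs).length = 3 * gs.length := by
  induction gs generalizing p with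
  | nil => rfl
  | cons g gs ih =>
    simp only [expandAll, List.length_append, length_expandGate, ih, List.length_cons]
    ring

theorem inv_run {δ : ℝ} {n : ℕ} (gs : List Gate) (p : ℕ) (σ σ' : ℕ → ℂ) (h : Inv δ n p σ σ') :
    Inv δ n (p + gs.length) (runGates gs (n + 1 + p) σ)
      (runGates (expandAll δ n p gs) (n + 1 + 3 * p) σ') := by
  induction gs generalizing p σ σ' with
  | nil => simpa [expandAll, runGates] using h
  | cons g gs ih =>
    simp only [expandAll, runGates, List.length_cons]
    rw [runGates_append, length_expandGate]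
    have := ih (p + 1) _ _ (h.step g)
    have e1 : n + 1 + 3 * p + 3 = n + 1 + 3 * (p + 1) := by ring
    have e2 : p + (gs.length + 1) = p + 1 + gs.length := by ring
    rw [e1, e2]
    exact this

theorem inv_init (δ : ℝ) (n : ℕ) (x : Fin n → ℂ) : Inv δ n 0 (initState n x) (initState n x) := by
  refine ⟨?_, ?_, ?_⟩
  · intro u hu
    have h1 : newNode n u = u := by
      unfold newNode; rw [if_pos (by omega)]
    have h2 : lev n u = 0 := by
      unfold lev; rw [if_pos (by omega)]
    rw [h1, h2]
    simp
  · intro u hu
    unfold initState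
    rw [dif_neg (by omega)]
  · intro u hu
    unfold initState
    rw [dif_neg (by omega)]

/-- The gate that rescales output node `u` at the very end. -/
noncomputable def scaleGate (δ : ℝ) (n s u : ℕ) : Gate :=
  .smul (((δ ^ lev n u : ℝ) : ℂ)⁻¹) (if u < n + 1 + s then newNode n u else n)

theorem run_scale (δ : ℝ) (n s : ℕ) (L : List ℕ) (k : ℕ) (σ : ℕ → ℂ)
    (hk : ∀ u ∈ L, (if u < n + 1 + s then newNode n u else n) < k)
    (i : ℕ) (hi : i < L.length) :
    runGates (L.map (scaleGate δ n s)) k σ (k + i) =
      ((δ ^ lev n L[i] : ℝ) : ℂ)⁻¹ * σ (if L[i] < n + 1 + s then newNode n L[i] else n) := by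
  induction L generalizing k σ i with
  | nil => simp at hi
  | cons u L ih =>
    simp only [List.map_cons, runGates]
    rcases i with _ | i
    · simp only [Nat.add_zero, List.getElem_cons_zero]
      rw [runGates_of_lt _ _ _ _ (by omega), Function.update_self]
      rfl
    · simp only [List.getElem_cons_succ]
      have hlen : i < L.length := by simpa using hi
      have := ih (k + 1) (Function.update σ k ((scaleGate δ n s u).value σ))
        (fun w hw => by
          have := hk w (List.mem_cons_of_mem _ hw)
          omega) i hlen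
      have e : k + (i + 1) = k + 1 + i := by ring
      rw [e, this]
      congr 1
      have h3 := hk L[i] (List.mem_cons_of_mem _ (List.getElem_mem hlen))
      rw [Function.update_of_ne (by omega)]

theorem bigCount_eq_zero (B : ℝ) (gs : List Gate) (h : ∀ g ∈ gs, ¬ g.IsBig B) :
    bigCount B gs = 0 := by
  classical
  unfold bigCount
  rw [List.countP_eq_zero]
  intro g hg
  simpa using h g hg

theorem not_big_expandGate {δ : ℝ} (h0 : 0 < δ) (h1 : δ ≤ 1) (n p : ℕ) (g : Gate)
    (hg : ∀ c u, g = Gate.smul c u → ‖c‖ * δ ≤ 1) :
    bigCount 1 (expandGate δ n p g) = 0 := by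
  have hcoef : ∀ u, ‖coef δ n p u‖ ≤ δ := by
    intro u
    simp only [coef, Complex.norm_real, Real.norm_eq_abs, abs_pow, abs_of_pos h0]
    calc δ ^ (max 1 (p + 1 - lev n u)) ≤ δ ^ 1 :=
          pow_le_pow_of_le_one h0.le h1 (le_max_left _ _)
      _ = δ := pow_one _
  have hc1 : ∀ u, ¬ (1 < ‖coef δ n p u‖) := fun u => not_lt.mpr (le_trans (hcoef u) h1)
  apply bigCount_eq_zero
  intro g' hg'
  cases g with
  | add u v =>
    simp only [expandGate, List.mem_cons, List.not_mem_nil, or_false] at hg'
    rcases hg' with rfl | rfl | rfl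
    · exact hc1 u
    · exact hc1 v
    · exact fun h => h
  | sub u v =>
    simp only [expandGate, List.mem_cons, List.not_mem_nil, or_false] at hg'
    rcases hg' with rfl | rfl | rfl
    · exact hc1 u
    · exact hc1 v
    · exact fun h => h
  | smul c u =>
    have hc := hg c u rfl
    have h2 : ¬ (1 < ‖c * coef δ n p u‖) := by
      apply not_lt.mpr
      rw [norm_mul]
      calc ‖c‖ * ‖coef δ n p u‖ ≤ ‖c‖ * δ := by gcongr; exact hcoef u
        _ ≤ 1 := hc
    simp only [expandGate, List.mem_cons, List.not_mem_nil, or_false] at hg'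
    rcases hg' with rfl | rfl | rfl
    · exact h2
    · simp [Gate.IsBig]
    · exact fun h => h

theorem bigCount_append (B : ℝ) (a b : List Gate) :
    bigCount B (a ++ b) = bigCount B a + bigCount B b := by
  classical
  simp [bigCount, List.countP_append]

theorem not_big_expandAll {δ : ℝ} (h0 : 0 < δ) (h1 : δ ≤ 1) (n p : ℕ) (gs : List Gate)
    (hg : ∀ c u, Gate.smul c u ∈ gs → ‖c‖ * δ ≤ 1) :
    bigCount 1 (expandAll δ n p gs) = 0 := by
  induction gs generalizing p with
  | nil => simp [expandAll, bigCount]
  | cons g gs ih =>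
    simp only [expandAll]
    rw [bigCount_append, not_big_expandGate h0 h1 n p g, ih, add_zero]
    · intro c u hm
      exact hg c u (List.mem_cons_of_mem _ hm)
    · intro c u h
      subst h
      exact hg c u List.mem_cons_self

/-- The sum of the moduli of all coefficients. -/
noncomputable def coefSum : List Gate → ℝ
  | [] => 0
  | .smul c _ :: gs => ‖c‖ + coefSum gs
  | _ :: gs => coefSum gs

theorem coefSum_nonneg (gs : List Gate) : 0 ≤ coefSum gs := by
  induction gs with
  | nil => simp [coefSum]
  | cons g gs ih =>
    cases g <;> simp only [coefSum] <;> positivity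

theorem le_coefSum (gs : List Gate) (c : ℂ) (u : ℕ) (h : Gate.smul c u ∈ gs) :
    ‖c‖ ≤ coefSum gs := by
  induction gs with
  | nil => simp at h
  | cons g gs ih =>
    rcases List.mem_cons.mp h with h | h
    · subst h
      simp only [coefSum]
      have := coefSum_nonneg gs
      linarith
    · have := ih h
      cases g with
      | add a b => simpa only [coefSum] using this
      | sub a b => simpa only [coefSum] using this
      | smul d a =>
        simp only [coefSum]
        have := norm_nonneg d
        linarith

/-- Every circuit can be rescaled so that all coefficients but `n` have modulus at most `1`. -/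
theorem gauge {n : ℕ} (C : Circuit n) (M : Matrix (Fin n) (Fin n) ℂ) (hC : C.Computes M) :
    ∃ C' : Circuit n, C'.Computes M ∧ C'.gates.length = 3 * C.gates.length + n ∧
      bigCount 1 C'.gates ≤ n := by
  classical
  set s := C.gates.length with hs
  set δ : ℝ := (1 + coefSum C.gates)⁻¹ with hδ
  have hS := coefSum_nonneg C.gates
  have h0 : 0 < δ := by positivity
  have h1 : δ ≤ 1 := by
    rw [hδ]
    exact inv_le_one_of_one_le₀ (by linarith)
  have hcoef : ∀ c u, Gate.smul c u ∈ C.gates → ‖c‖ * δ ≤ 1 := by
    intro c u hm
    have := le_coefSum _ _ _ hm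
    rw [hδ, ← div_eq_mul_inv, div_le_one (by linarith)]
    linarith
  let gs' := expandAll δ n 0 C.gates ++ (List.ofFn C.out).map (scaleGate δ n s)
  let C' : Circuit n := ⟨gs', fun j => n + 1 + 3 * s + j⟩
  refine ⟨C', ?_, ?_, ?_⟩
  · intro x j
    have hinv := inv_run C.gates 0 _ _ (inv_init δ n x)
    simp only [Nat.add_zero, Nat.mul_zero, Nat.zero_add] at hinv
    rw [← hC x j]
    show runGates gs' (n + 1) (initState n x) (n + 1 + 3 * s + j) = runGates C.gates (n + 1) _ _
    simp only [gs']
    rw [runGates_append, length_expandAll, ← hs]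
    set Sg := runGates (expandAll δ n 0 C.gates) (n + 1) (initState n x) with hSg
    have hk : ∀ u ∈ List.ofFn C.out, (if u < n + 1 + s then newNode n u else n) < n + 1 + 3 * s := by
      intro u _
      split_ifs with hu
      · unfold newNode
        split_ifs <;> omega
      · omega
    have hlen : (j : ℕ) < (List.ofFn C.out).length := by simp
    have := run_scale δ n s (List.ofFn C.out) (n + 1 + 3 * s) Sg hk j hlen
    rw [this]
    have hget : (List.ofFn C.out)[(j : ℕ)] = C.out j := by simp
    rw [hget]
    have hne : ((δ ^ lev n (C.out j) : ℝ) : ℂ) ≠ 0 := by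
      exact_mod_cast (pow_pos h0 _).ne'
    by_cases hu : C.out j < n + 1 + s
    · rw [if_pos hu, hinv.low _ hu, ← mul_assoc, inv_mul_cancel₀ hne, one_mul]
    · rw [if_neg hu]
      have h2 := hinv.low n (by omega)
      have h3 : newNode n n = n := by unfold newNode; simp
      rw [h3] at h2
      rw [h2]
      have h4 : runGates C.gates (n + 1) (initState n x) n = 0 := by
        rw [runGates_of_lt _ _ _ _ (by omega)]
        unfold initState
        simp
      have h5 := hinv.high (C.out j) (by omega)
      rw [h4, mul_zero, mul_zero]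
      show 0 = runGates C.gates (n + 1) _ _
      rw [h5]
  · simp only [C', gs', List.length_append, length_expandAll, List.length_map, List.length_ofFn]
    rw [← hs]
  · simp only [C', gs']
    rw [bigCount_append, not_big_expandAll h0 h1 n 0 _ hcoef, zero_add]
    calc bigCount 1 ((List.ofFn C.out).map (scaleGate δ n s))
        ≤ ((List.ofFn C.out).map (scaleGate δ n s)).length := List.countP_le_length
      _ = n := by simp

/-- Question Q1 is equivalent to its restriction to circuits with at most `n` coefficients of
modulus greater than `1`. -/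
theorem q1_iff_restricted :
    (∃ c : ℝ, 0 < c ∧ ∃ N : ℕ, ∀ n, N ≤ n → ∀ C : Circuit n, C.Computes (dft n) →
      c * (n * Real.logb 2 n) ≤ C.gates.length) ↔
    (∃ c : ℝ, 0 < c ∧ ∃ N : ℕ, ∀ n, N ≤ n → ∀ C : Circuit n, C.Computes (dft n) →
      bigCount 1 C.gates ≤ n → c * (n * Real.logb 2 n) ≤ C.gates.length) := by
  constructor
  · rintro ⟨c, hc, N, h⟩
    exact ⟨c, hc, N, fun n hn C hC _ => h n hn C hC⟩
  · rintro ⟨c, hc, N, h⟩
    refine ⟨c / 6, by positivity, max N ⌈(2 : ℝ) ^ (2 / c)⌉₊, ?_⟩
    intro n hn C hC
    have hn1 : N ≤ n := le_trans (le_max_left _ _) hn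
    have hn2 : (2 : ℝ) ^ (2 / c) ≤ n :=
      le_trans (Nat.le_ceil _) (by exact_mod_cast le_trans (le_max_right _ _) hn)
    have hlog : 2 / c ≤ Real.logb 2 n := by
      have hp : (0 : ℝ) < (2 : ℝ) ^ (2 / c) := by positivity
      have := Real.logb_le_logb_of_le (b := 2) (by norm_num) hp hn2
      rwa [Real.logb_rpow (by norm_num) (by norm_num)] at this
    obtain ⟨C', hC', hlen, hbig⟩ := gauge C (dft n) hC
    have hmain := h n hn1 C' hC' hbig
    rw [hlen] at hmain
    push_cast at hmain
    have hnn : (0 : ℝ) ≤ n := Nat.cast_nonneg _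
    have hcl : 2 ≤ c * Real.logb 2 n := by
      rw [div_le_iff₀ hc] at hlog
      linarith
    have : (n : ℝ) * 2 ≤ (n : ℝ) * (c * Real.logb 2 n) := by gcongr
    nlinarith

end Vale.Agent.Lib.P344
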