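import Vale.Agent.Lib.P344.Defs

/-! Volume potentials for linear circuits (Morgenstern's argument, with node weights). -/

namespace Vale.Agent.Lib.P344

open Matrix

section generic

variable {V W : Type*} [AddCommGroup V] [Module ℂ V] [AddCommGroup W] [Module ℂ W]

/-- The value of a gate on vector valued nodes. -/
def Gate.valueV (σ : ℕ → V) : Gate → V
  | .add u v => σ u + σ v
  | .sub u v => σ u - σ v
  | .smul c u => c • σ u

/-- Run a list of gates on vector valued nodes. -/
def runV : List Gate → ℕ → (ℕ → V) → (ℕ → V)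
  | [], _, σ => σ
  | g :: gs, k, σ => runV gs (k + 1) (Function.update σ k (g.valueV σ))

theorem Gate.valueV_map (ℓ : V →ₗ[ℂ] W) (σ : ℕ → V) (g : Gate) :
    ℓ (g.valueV σ) = g.valueV (fun i => ℓ (σ i)) := by
  cases g <;> simp [Gate.valueV]

theorem runV_map (ℓ : V →ₗ[ℂ] W) (gs : List Gate) (k : ℕ) (σ : ℕ → V) (i : ℕ) :
    ℓ (runV gs k σ i) = runV gs k (fun i => ℓ (σ i)) i := by
  induction gs generalizing k σ with
  | nil => rfl
  | cons g gs ih =>
    simp only [runV]
    rw [ih]
    congr 1
    funext j
    by_cases h : j = k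
    · subst h; simp [Gate.valueV_map]
    · simp [Function.update_of_ne h]

theorem runV_of_lt (gs : List Gate) (k : ℕ) (σ : ℕ → V) (i : ℕ) (h : i < k) :
    runV gs k σ i = σ i := by
  induction gs generalizing k σ with
  | nil => rfl
  | cons g gs ih =>
    simp only [runV]
    rw [ih _ _ (by omega)]
    simp [Function.update_of_ne (by omega : i ≠ k)]

theorem Gate.value_eq_valueV (σ : ℕ → ℂ) (g : Gate) : g.value σ = g.valueV σ := by
  cases g <;> simp [Gate.value, Gate.valueV]

theorem runGates_eq_runV (gs : List Gate) (k : ℕ) (σ : ℕ → ℂ) :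
    runGates gs k σ = runV gs k σ := by
  induction gs generalizing k σ with
  | nil => rfl
  | cons g gs ih =>
    simp only [runGates, runV]
    rw [ih, Gate.value_eq_valueV]

end generic

variable {r : ℕ}

/-- The square matrix whose rows are the vectors stored at the nodes `f i`. -/
def rows (σ : ℕ → Fin r → ℂ) (f : Fin r → ℕ) : Matrix (Fin r) (Fin r) ℂ :=
  Matrix.of fun i => σ (f i)

theorem rows_update_row (σ : ℕ → Fin r → ℂ) (f : Fin r → ℕ) (i : Fin r) (u : ℕ) :
    (rows σ f).updateRow i (σ u) = rows σ (Function.update f i u) := by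
  ext a b
  by_cases h : a = i
  · subst h; simp [rows, Matrix.updateRow_self]
  · simp [rows, Matrix.updateRow_ne h, Function.update_of_ne h]

/-- The product of weights over a tuple, with one entry replaced. -/
theorem prod_update_weight (w : ℕ → ℝ) (f : Fin r → ℕ) (i : Fin r) (u : ℕ) :
    ∏ a, w (Function.update f i u a) = w u * ∏ a ∈ Finset.univ.erase i, w (f a) := by
  rw [← Finset.mul_prod_erase Finset.univ _ (Finset.mem_univ i)]
  simp only [Function.update_self]
  congr 1
  apply Finset.prod_congr rfl
  intro a ha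
  rw [Function.update_of_ne (Finset.ne_of_mem_erase ha)]

/-- One step of the potential argument. `G` bounds all minors, relative to the node weights `w`. -/
theorem potential_step (σ : ℕ → Fin r → ℂ) (w : ℕ → ℝ) (G : ℝ) (hw : ∀ i, 0 ≤ w i) (hG : 0 ≤ G)
    (H : ∀ f : Fin r → ℕ, ‖(rows σ f).det‖ ≤ G * ∏ i, w (f i))
    (g : Gate) (k : ℕ) (wnew φ : ℝ) (hnew : 0 ≤ wnew) (hφ : 1 ≤ φ)
    (hadd : ∀ u v, (g = .add u v ∨ g = .sub u v) → 2 ≤ φ ∧ w u ≤ wnew ∧ w v ≤ wnew)
    (hsmul : ∀ c u, g = .smul c u → ‖c‖ * w u ≤ φ * wnew) (f : Fin r → ℕ) :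
    ‖(rows (Function.update σ k (g.valueV σ)) f).det‖ ≤
      (φ * G) * ∏ i, (Function.update w k wnew) (f i) := by
  classical
  by_cases hex : ∃ i, f i = k
  · obtain ⟨i, hi⟩ := hex
    by_cases hdup : ∃ j, j ≠ i ∧ f j = k
    · obtain ⟨j, hji, hj⟩ := hdup
      have hz : (rows (Function.update σ k (g.valueV σ)) f).det = 0 := by
        apply Matrix.det_zero_of_row_eq hji
        funext b
        simp [rows, hi, hj]
      rw [hz, norm_zero]
      apply mul_nonneg (mul_nonneg (by linarith) hG)
      apply Finset.prod_nonneg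
      intro a _
      by_cases h : f a = k
      · simp [h, hnew]
      · simp [Function.update_of_ne h, hw]
    · have hne : ∀ j, j ≠ i → f j ≠ k := fun j hj hjk => hdup ⟨j, hj, hjk⟩
      set A := rows σ f with hA
      have hrow : rows (Function.update σ k (g.valueV σ)) f = A.updateRow i (g.valueV σ) := by
        ext a b
        by_cases h : a = i
        · subst h; simp [rows, hi, Matrix.updateRow_self]
        · simp [hA, rows, Matrix.updateRow_ne h, Function.update_of_ne (hne a h)]
      have hprod : ∏ a, (Function.update w k wnew) (f a) =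
          wnew * ∏ a ∈ Finset.univ.erase i, w (f a) := by
        rw [← Finset.mul_prod_erase Finset.univ _ (Finset.mem_univ i)]
        simp only [hi, Function.update_self]
        congr 1
        apply Finset.prod_congr rfl
        intro a ha
        rw [Function.update_of_ne (hne a (Finset.ne_of_mem_erase ha))]
      set R := ∏ a ∈ Finset.univ.erase i, w (f a) with hR
      have hRnn : 0 ≤ R := Finset.prod_nonneg fun a _ => hw _
      have bound : ∀ u, ‖(A.updateRow i (σ u)).det‖ ≤ G * (w u * R) := by
        intro u
        rw [hA, rows_update_row, ← prod_update_weight]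
        exact H _
      rw [hrow, hprod]
      cases g with
      | add u v =>
        obtain ⟨h2, hu, hv⟩ := hadd u v (Or.inl rfl)
        have e : Gate.valueV σ (.add u v) = σ u + σ v := rfl
        rw [e, Matrix.det_updateRow_add]
        calc ‖(A.updateRow i (σ u)).det + (A.updateRow i (σ v)).det‖
            ≤ ‖(A.updateRow i (σ u)).det‖ + ‖(A.updateRow i (σ v)).det‖ := norm_add_le _ _
          _ ≤ G * (w u * R) + G * (w v * R) := add_le_add (bound u) (bound v)
          _ ≤ G * (wnew * R) + G * (wnew * R) := by gcongr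
          _ = 2 * G * (wnew * R) := by ring
          _ ≤ φ * G * (wnew * R) := by
              have : 0 ≤ G * (wnew * R) := by positivity
              nlinarith
      | sub u v =>
        obtain ⟨h2, hu, hv⟩ := hadd u v (Or.inr rfl)
        have e : Gate.valueV σ (.sub u v) = σ u + (-1 : ℂ) • σ v := by
          simp [Gate.valueV, sub_eq_add_neg]
        rw [e, Matrix.det_updateRow_add, Matrix.det_updateRow_smul]
        calc ‖(A.updateRow i (σ u)).det + (-1 : ℂ) * (A.updateRow i (σ v)).det‖
            ≤ ‖(A.updateRow i (σ u)).det‖ + ‖(-1 : ℂ) * (A.updateRow i (σ v)).det‖ :=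
              norm_add_le _ _
          _ = ‖(A.updateRow i (σ u)).det‖ + ‖(A.updateRow i (σ v)).det‖ := by simp
          _ ≤ G * (w u * R) + G * (w v * R) := add_le_add (bound u) (bound v)
          _ ≤ G * (wnew * R) + G * (wnew * R) := by gcongr
          _ = 2 * G * (wnew * R) := by ring
          _ ≤ φ * G * (wnew * R) := by
              have : 0 ≤ G * (wnew * R) := by positivity
              nlinarith
      | smul c u =>
        have hc := hsmul c u rfl
        have e : Gate.valueV σ (.smul c u) = c • σ u := rfl
        rw [e, Matrix.det_updateRow_smul, norm_mul]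
        calc ‖c‖ * ‖(A.updateRow i (σ u)).det‖ ≤ ‖c‖ * (G * (w u * R)) := by
              gcongr; exact bound u
          _ = (‖c‖ * w u) * (G * R) := by ring
          _ ≤ (φ * wnew) * (G * R) := by gcongr
          _ = φ * G * (wnew * R) := by ring
  · have hne : ∀ j, f j ≠ k := fun j hj => hex ⟨j, hj⟩
    have h1 : rows (Function.update σ k (g.valueV σ)) f = rows σ f := by
      ext a b
      simp [rows, Function.update_of_ne (hne a)]
    have h2 : ∏ a, (Function.update w k wnew) (f a) = ∏ a, w (f a) := by
      apply Finset.prod_congr rfl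
      intro a _
      rw [Function.update_of_ne (hne a)]
    rw [h1, h2]
    have hP : 0 ≤ ∏ a, w (f a) := Finset.prod_nonneg fun a _ => hw _
    calc ‖(rows σ f).det‖ ≤ G * ∏ i, w (f i) := H f
      _ = 1 * G * ∏ i, w (f i) := by ring
      _ ≤ φ * G * ∏ i, w (f i) := by gcongr

end Vale.Agent.Lib.P344
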