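import Vale.Agent.Lib.P344.Defs

/-! A Cauchy-Binet identity for ordered row selections and the resulting volume inequality. -/

namespace Vale.Agent.Lib.P344

open Matrix
open scoped ComplexConjugate

variable {n r : ℕ}

/-- The sum of the squared norms of the determinants of all selections of `r` rows. -/
noncomputable def rowSum (M : Matrix (Fin n) (Fin r) ℂ) : ℝ :=
  ∑ g : Fin r → Fin n, ‖(M.submatrix g id).det‖ ^ 2

theorem det_eq_sum_perm (A : Matrix (Fin r) (Fin r) ℂ) :
    A.det = ∑ σ : Equiv.Perm (Fin r), ((Equiv.Perm.sign σ : ℤ) : ℂ) * ∏ i, A i (σ i) := by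
  rw [← Matrix.det_transpose, Matrix.det_apply']
  rfl

theorem norm_sq_det (A : Matrix (Fin r) (Fin r) ℂ) :
    ((‖A.det‖ ^ 2 : ℝ) : ℂ) = ∑ σ : Equiv.Perm (Fin r), ∑ τ : Equiv.Perm (Fin r),
      ((Equiv.Perm.sign σ : ℤ) : ℂ) * ((Equiv.Perm.sign τ : ℤ) : ℂ) *
        ∏ i, (A i (σ i) * conj (A i (τ i))) := by
  have h1 : ((‖A.det‖ ^ 2 : ℝ) : ℂ) = A.det * conj A.det := by
    rw [Complex.mul_conj, Complex.normSq_eq_norm_sq]
  rw [h1, det_eq_sum_perm A, map_sum, Finset.sum_mul_sum]
  apply Finset.sum_congr rfl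
  intro σ _
  apply Finset.sum_congr rfl
  intro τ _
  rw [map_mul, map_prod, map_intCast, Finset.prod_mul_distrib]
  ring

/-- A Cauchy-Binet identity for ordered selections of rows. -/
theorem rowSum_eq (M : Matrix (Fin n) (Fin r) ℂ) :
    ((rowSum M : ℝ) : ℂ) = (r.factorial : ℂ) * (Mᴴ * M).det := by
  set H := Mᴴ * M with hH
  have key : ∀ σ τ : Equiv.Perm (Fin r),
      ∑ g : Fin r → Fin n, ∏ i, (M (g i) (σ i) * conj (M (g i) (τ i))) =
        ∏ i, H (τ i) (σ i) := by
    intro σ τ
    have := (Finset.prod_univ_sum (fun _ : Fin r => (Finset.univ : Finset (Fin n)))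
      (fun i a => M a (σ i) * conj (M a (τ i)))).symm
    rw [Fintype.piFinset_univ] at this
    rw [this]
    apply Finset.prod_congr rfl
    intro i _
    simp only [hH, Matrix.mul_apply, Matrix.conjTranspose_apply, Complex.star_def]
    apply Finset.sum_congr rfl
    intro a _
    ring
  unfold rowSum
  push_cast
  have step1 : ∑ g : Fin r → Fin n, ((‖(M.submatrix g id).det‖ : ℂ) ^ 2) =
      ∑ σ : Equiv.Perm (Fin r), ∑ τ : Equiv.Perm (Fin r),
        ((Equiv.Perm.sign σ : ℤ) : ℂ) * ((Equiv.Perm.sign τ : ℤ) : ℂ) *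
          ∏ i, H (τ i) (σ i) := by
    calc ∑ g : Fin r → Fin n, ((‖(M.submatrix g id).det‖ : ℂ) ^ 2)
        = ∑ g : Fin r → Fin n, ∑ σ : Equiv.Perm (Fin r), ∑ τ : Equiv.Perm (Fin r),
            ((Equiv.Perm.sign σ : ℤ) : ℂ) * ((Equiv.Perm.sign τ : ℤ) : ℂ) *
              ∏ i, (M (g i) (σ i) * conj (M (g i) (τ i))) := by
          apply Finset.sum_congr rfl
          intro g _
          have := norm_sq_det (M.submatrix g id)
          push_cast at this
          rw [this]
          rfl
      _ = ∑ σ : Equiv.Perm (Fin r), ∑ τ : Equiv.Perm (Fin r),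
            ((Equiv.Perm.sign σ : ℤ) : ℂ) * ((Equiv.Perm.sign τ : ℤ) : ℂ) *
              ∑ g : Fin r → Fin n, ∏ i, (M (g i) (σ i) * conj (M (g i) (τ i))) := by
          rw [Finset.sum_comm]
          apply Finset.sum_congr rfl
          intro σ _
          rw [Finset.sum_comm]
          apply Finset.sum_congr rfl
          intro τ _
          rw [Finset.mul_sum]
      _ = _ := by
          apply Finset.sum_congr rfl
          intro σ _
          apply Finset.sum_congr rfl
          intro τ _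
          rw [key]
  rw [step1]
  have step2 : ∀ σ : Equiv.Perm (Fin r), ∑ τ : Equiv.Perm (Fin r),
      ((Equiv.Perm.sign σ : ℤ) : ℂ) * ((Equiv.Perm.sign τ : ℤ) : ℂ) *
        ∏ i, H (τ i) (σ i) = H.det := by
    intro σ
    rw [Matrix.det_apply', ← Equiv.sum_comp (Equiv.mulRight σ)]
    apply Finset.sum_congr rfl
    intro ρ _
    have hp : ∏ i, H ((Equiv.mulRight σ ρ) i) (σ i) = ∏ j, H (ρ j) j := by
      have := Equiv.prod_comp σ (fun j => H (ρ j) j)
      rw [← this]
      rfl
    rw [hp]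
    congr 1
    simp only [Equiv.coe_mulRight, Equiv.Perm.sign_mul]
    push_cast
    have hs : ((Equiv.Perm.sign σ : ℤ) : ℂ) * ((Equiv.Perm.sign σ : ℤ) : ℂ) = 1 := by
      have := Int.units_mul_self (Equiv.Perm.sign σ)
      have h2 : (((Equiv.Perm.sign σ * Equiv.Perm.sign σ : ℤˣ) : ℤ) : ℂ) = 1 := by
        rw [this]; simp
      push_cast at h2
      exact h2
    calc ((Equiv.Perm.sign σ : ℤ) : ℂ) * (((Equiv.Perm.sign ρ : ℤ) : ℂ) * ((Equiv.Perm.sign σ : ℤ) : ℂ))
        = ((Equiv.Perm.sign σ : ℤ) : ℂ) * ((Equiv.Perm.sign σ : ℤ) : ℂ) * ((Equiv.Perm.sign ρ : ℤ) : ℂ) := by ring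
      _ = ((Equiv.Perm.sign ρ : ℤ) : ℂ) := by rw [hs, one_mul]
  simp only [step2]
  simp [Finset.card_univ, Fintype.card_perm, Fintype.card_fin]

theorem rowSum_ne_zero {P : Matrix (Fin n) (Fin r) ℂ} (h : (Pᴴ * P).det ≠ 0) : rowSum P ≠ 0 := by
  intro h0
  have := rowSum_eq P
  rw [h0] at this
  simp only [Complex.ofReal_zero] at this
  have hf : (r.factorial : ℂ) ≠ 0 := by exact_mod_cast r.factorial_ne_zero
  exact (mul_ne_zero hf h) this.symm

/-- A maximal row selection of `P`: it is injective and the squared norm of its determinant, times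
`r!`, is at most `rowSum P`. -/
theorem exists_max_selection {P : Matrix (Fin n) (Fin r) ℂ} (h : (Pᴴ * P).det ≠ 0) :
    ∃ g₀ : Fin r → Fin n, (∀ g, ‖(P.submatrix g id).det‖ ≤ ‖(P.submatrix g₀ id).det‖) ∧
      0 < ‖(P.submatrix g₀ id).det‖ ∧
      (r.factorial : ℝ) * ‖(P.submatrix g₀ id).det‖ ^ 2 ≤ rowSum P := by
  classical
  have hS := rowSum_ne_zero h
  obtain ⟨g₁, _, hg₁⟩ := Finset.exists_ne_zero_of_sum_ne_zero hS
  have : Nonempty (Fin r → Fin n) := ⟨g₁⟩
  obtain ⟨g₀, hg₀⟩ := Finite.exists_max (fun g : Fin r → Fin n => ‖(P.submatrix g id).det‖)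
  have hpos : 0 < ‖(P.submatrix g₀ id).det‖ := by
    have h1 : 0 < ‖(P.submatrix g₁ id).det‖ := by
      rcases (norm_nonneg (P.submatrix g₁ id).det).lt_or_eq with h2 | h2
      · exact h2
      · exfalso; apply hg₁; rw [← h2]; ring
    exact lt_of_lt_of_le h1 (hg₀ g₁)
  refine ⟨g₀, hg₀, hpos, ?_⟩
  have hinj : Function.Injective g₀ := by
    intro a b hab
    by_contra hne
    have : (P.submatrix g₀ id).det = 0 := by
      apply Matrix.det_zero_of_row_eq hne
      funext c
      simp [hab]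
    rw [this, norm_zero] at hpos
    exact lt_irrefl _ hpos
  have hperm : ∀ π : Equiv.Perm (Fin r),
      ‖(P.submatrix (g₀ ∘ π) id).det‖ = ‖(P.submatrix g₀ id).det‖ := by
    intro π
    have : P.submatrix (g₀ ∘ π) id = (P.submatrix g₀ id).submatrix π id := by
      ext a b; rfl
    rw [this, Matrix.det_permute, norm_mul]
    have : ‖(((Equiv.Perm.sign π : ℤˣ) : ℤ) : ℂ)‖ = 1 := by
      rcases Int.units_eq_one_or (Equiv.Perm.sign π) with h | h <;> simp [h]
    rw [this, one_mul]
  have himg : Function.Injective (fun π : Equiv.Perm (Fin r) => g₀ ∘ π) := by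
    intro π π' hπ
    ext a
    have := congrFun hπ a
    simp only [Function.comp_apply] at this
    rw [hinj this]
  calc (r.factorial : ℝ) * ‖(P.submatrix g₀ id).det‖ ^ 2
      = ∑ π : Equiv.Perm (Fin r), ‖(P.submatrix (g₀ ∘ π) id).det‖ ^ 2 := by
        simp only [hperm]
        simp [Finset.card_univ, Fintype.card_perm, Fintype.card_fin]
    _ = ∑ g ∈ Finset.univ.image (fun π : Equiv.Perm (Fin r) => g₀ ∘ π),
          ‖(P.submatrix g id).det‖ ^ 2 := by
        rw [Finset.sum_image (fun _ _ _ _ h => himg h)]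
    _ ≤ rowSum P := by
        apply Finset.sum_le_sum_of_subset_of_nonneg (Finset.subset_univ _)
        intro _ _ _
        positivity

/-- The key volume inequality: if `Q* Q = n P* P` and every `r × r` minor of `Q` is at most `Π`
times the largest `r × r` minor of `P`, then `n ^ r ≤ C(n, r) Π ^ 2`. -/
theorem volume_ineq {P Q : Matrix (Fin n) (Fin r) ℂ} (hdet : (Pᴴ * P).det ≠ 0)
    (hQ : Qᴴ * Q = (n : ℂ) • (Pᴴ * P)) (Pi : ℝ)
    (hbound : ∀ D : ℝ, (∀ g, ‖(P.submatrix g id).det‖ ≤ D) →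
      ∀ g, ‖(Q.submatrix g id).det‖ ≤ D * Pi) :
    (n : ℝ) ^ r ≤ (n.choose r : ℝ) * Pi ^ 2 := by
  classical
  obtain ⟨g₀, hmax, hpos, hlow⟩ := exists_max_selection hdet
  set D := ‖(P.submatrix g₀ id).det‖ with hD
  have hQbound := hbound D hmax
  -- the two row sums
  have hSQ : rowSum Q = (n : ℝ) ^ r * rowSum P := by
    have h1 := rowSum_eq Q
    rw [hQ, Matrix.det_smul] at h1
    have h2 := rowSum_eq P
    apply Complex.ofReal_injective
    rw [h1]
    push_cast
    rw [h2]
    simp only [Fintype.card_fin]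
    ring
  have hupper : rowSum Q ≤ (n.descFactorial r : ℝ) * (D * Pi) ^ 2 := by
    unfold rowSum
    have hzero : ∀ g : Fin r → Fin n, ¬ Function.Injective g → ‖(Q.submatrix g id).det‖ ^ 2 = 0 := by
      intro g hg
      simp only [Function.Injective, not_forall] at hg
      obtain ⟨a, b, hab, hne⟩ := hg
      have : (Q.submatrix g id).det = 0 := by
        apply Matrix.det_zero_of_row_eq hne
        funext c
        simp [hab]
      simp [this]
    have hsum : ∑ g : Fin r → Fin n, ‖(Q.submatrix g id).det‖ ^ 2 =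
        ∑ g ∈ Finset.univ.filter (fun g : Fin r → Fin n => Function.Injective g),
          ‖(Q.submatrix g id).det‖ ^ 2 := by
      rw [Finset.sum_filter]
      apply Finset.sum_congr rfl
      intro g _
      split_ifs with h
      · rfl
      · exact hzero g h
    rw [hsum]
    have hcard : (Finset.univ.filter (fun g : Fin r → Fin n => Function.Injective g)).card =
        n.descFactorial r := by
      rw [← Fintype.card_subtype]
      rw [Fintype.card_congr (Equiv.subtypeInjectiveEquivEmbedding (Fin r) (Fin n))]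
      rw [Fintype.card_embedding_eq]
      simp
    calc ∑ g ∈ Finset.univ.filter (fun g : Fin r → Fin n => Function.Injective g),
          ‖(Q.submatrix g id).det‖ ^ 2
        ≤ ∑ g ∈ Finset.univ.filter (fun g : Fin r → Fin n => Function.Injective g), (D * Pi) ^ 2 := by
          apply Finset.sum_le_sum
          intro g _
          have := hQbound g
          gcongr
      _ = (n.descFactorial r : ℝ) * (D * Pi) ^ 2 := by
          rw [Finset.sum_const, hcard, nsmul_eq_mul]
  have hfact : (0 : ℝ) < r.factorial := by exact_mod_cast r.factorial_pos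
  have hmain : (n : ℝ) ^ r * ((r.factorial : ℝ) * D ^ 2) ≤
      (r.factorial : ℝ) * (n.choose r : ℝ) * Pi ^ 2 * D ^ 2 := by
    calc (n : ℝ) ^ r * ((r.factorial : ℝ) * D ^ 2) ≤ (n : ℝ) ^ r * rowSum P := by
          gcongr
      _ = rowSum Q := hSQ.symm
      _ ≤ (n.descFactorial r : ℝ) * (D * Pi) ^ 2 := hupper
      _ = (r.factorial : ℝ) * (n.choose r : ℝ) * Pi ^ 2 * D ^ 2 := by
          rw [Nat.descFactorial_eq_factorial_mul_choose]
          push_cast
          ring
  have hpos2 : 0 < (r.factorial : ℝ) * D ^ 2 := by positivity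
  have : (n : ℝ) ^ r * ((r.factorial : ℝ) * D ^ 2) ≤
      ((n.choose r : ℝ) * Pi ^ 2) * ((r.factorial : ℝ) * D ^ 2) := by
    calc _ ≤ _ := hmain
      _ = _ := by ring
  exact le_of_mul_le_mul_right this hpos2

end Vale.Agent.Lib.P344
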