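import Vale.Agent.Lib.P344.Tradeoff

/-! The trade-off in terms of the number of large coefficients. -/

namespace Vale.Agent.Lib.P344

open Classical in
/-- The positions of the scalar gates with a coefficient of modulus greater than `B`. -/
noncomputable def bigPositions (B : ℝ) : ℕ → List Gate → Finset ℕ
  | _, [] => ∅
  | p, g :: gs =>
    if g.IsBig B then insert p (bigPositions B (p + 1) gs) else bigPositions B (p + 1) gs

theorem bigPositions_ge (B : ℝ) (gs : List Gate) (p q : ℕ) (h : q ∈ bigPositions B p gs) :
    p ≤ q := by
  induction gs generalizing p with
  | nil => simp [bigPositions] at h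
  | cons g gs ih =>
    simp only [bigPositions] at h
    split_ifs at h with hg
    · rcases Finset.mem_insert.mp h with h | h
      · omega
      · have := ih _ h; omega
    · have := ih _ h; omega

theorem card_bigPositions (B : ℝ) (gs : List Gate) (p : ℕ) :
    (bigPositions B p gs).card = bigCount B gs := by
  classical
  induction gs generalizing p with
  | nil => simp [bigPositions, bigCount]
  | cons g gs ih =>
    simp only [bigPositions, bigCount, List.countP_cons]
    by_cases hg : g.IsBig B
    · simp only [hg, if_true, decide_true]
      rw [Finset.card_insert_of_notMem, ih]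
      · rfl
      · intro h
        have := bigPositions_ge _ _ _ _ h
        omega
    · simp only [hg, if_false, decide_false]
      rw [ih]
      rfl

theorem cost_insert_of_lt (T : Finset ℕ) (q : ℕ) (gs : List Gate) (p : ℕ) (h : q < p) :
    cost (insert q T) p gs = cost T p gs := by
  induction gs generalizing p with
  | nil => rfl
  | cons g gs ih =>
    simp only [cost]
    rw [ih _ (by omega)]
    congr 1
    have : p ≠ q := by omega
    simp [Finset.mem_insert, this]

theorem cost_bigPositions_le (B : ℝ) (hB : 1 ≤ B) (gs : List Gate) (p : ℕ) :
    cost (bigPositions B p gs) p gs ≤ gs.length * max 1 (Real.logb 2 B) := by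
  classical
  induction gs generalizing p with
  | nil => simp [cost]
  | cons g gs ih =>
    have hB0 : (0 : ℝ) < B := by linarith
    have hmem : ∀ (S : Finset ℕ), (∀ q ∈ S, p + 1 ≤ q) → p ∉ S := by
      intro S hS hp
      have := hS p hp
      omega
    have hnot : p ∉ bigPositions B (p + 1) gs :=
      hmem _ (fun q hq => bigPositions_ge _ _ _ _ hq)
    have hhead : (if p ∈ bigPositions B p (g :: gs) then 0 else g.price) ≤
        max 1 (Real.logb 2 B) := by
      have h1 : (1 : ℝ) ≤ max 1 (Real.logb 2 B) := le_max_left _ _
      by_cases hg : g.IsBig B
      · have : p ∈ bigPositions B p (g :: gs) := by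
          simp [bigPositions, hg]
        simp only [this, if_true]
        linarith
      · have : p ∉ bigPositions B p (g :: gs) := by
          simp [bigPositions, hg, hnot]
        simp only [this, if_false]
        cases g with
        | add u v => exact h1
        | sub u v => exact h1
        | smul c u =>
          simp only [Gate.IsBig, not_lt] at hg
          simp only [Gate.price]
          have h2 : Real.logb 2 (max 1 ‖c‖) ≤ Real.logb 2 B := by
            apply Real.logb_le_logb_of_le (by norm_num) (by positivity)
            exact max_le hB hg
          exact le_trans h2 (le_max_right _ _)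
    have htail : cost (bigPositions B p (g :: gs)) (p + 1) gs ≤
        gs.length * max 1 (Real.logb 2 B) := by
      by_cases hg : g.IsBig B
      · simp only [bigPositions, hg, if_true]
        rw [cost_insert_of_lt _ _ _ _ (by omega)]
        exact ih _
      · simp only [bigPositions, hg, if_false]
        exact ih _
    simp only [cost, List.length_cons]
    push_cast
    linarith

/-- The threshold form: at most `n - k` coefficients of modulus above `B` force `(k/2) log₂ n`
gates, up to the factor `max 1 (log₂ B)` and the loss `n / 2`. -/
theorem threshold {n : ℕ} (C : Circuit n) (hC : C.Computes (dft n)) (B : ℝ) (hB : 1 ≤ B) :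
    ((n : ℝ) - bigCount B C.gates) / 2 * Real.logb 2 n - n / 2 ≤
      C.gates.length * max 1 (Real.logb 2 B) := by
  have hmax : 0 ≤ (C.gates.length : ℝ) * max 1 (Real.logb 2 B) :=
    mul_nonneg (Nat.cast_nonneg _) (le_trans zero_le_one (le_max_left _ _))
  have hlogn : 0 ≤ Real.logb 2 n := by
    rcases Nat.eq_zero_or_pos n with h | h
    · simp [h]
    · exact Real.logb_nonneg (by norm_num) (by exact_mod_cast h)
  by_cases ht : bigCount B C.gates ≤ n
  · set T := bigPositions B 0 C.gates with hT
    have hcard : T.card = bigCount B C.gates := card_bigPositions _ _ _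
    have hmain := tradeoff C hC T (by rw [hcard]; exact ht)
    have hcost := cost_bigPositions_le B hB C.gates 0
    rw [hcard] at hmain
    have hcast : ((n - bigCount B C.gates : ℕ) : ℝ) = (n : ℝ) - bigCount B C.gates := by
      rw [Nat.cast_sub ht]
    rw [hcast] at hmain
    have hchoose : Real.logb 2 (n.choose (bigCount B C.gates)) ≤ n := by
      have h1 : (n.choose (bigCount B C.gates) : ℝ) ≤ 2 ^ n := by
        exact_mod_cast Nat.choose_le_two_pow n _
      have h2 : (0 : ℝ) < n.choose (bigCount B C.gates) := by
        exact_mod_cast Nat.choose_pos ht
      have h3 := Real.logb_le_logb_of_le (b := 2) (by norm_num) h2 h1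
      rw [Real.logb_pow] at h3
      simpa using h3
    linarith
  · have hlt : (n : ℝ) < bigCount B C.gates := by
      exact_mod_cast not_le.mp ht
    have : ((n : ℝ) - bigCount B C.gates) / 2 * Real.logb 2 n ≤ 0 :=
      mul_nonpos_of_nonpos_of_nonneg (by linarith) hlogn
    have hn : (0 : ℝ) ≤ n := Nat.cast_nonneg _
    linarith

end Vale.Agent.Lib.P344
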