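import Vale.Agent.Lib.P344.Potential
import Vale.Agent.Lib.P344.Sums
import Vale.Agent.Lib.P344.DftOrth

/-! The trade-off between gate count and the number of large coefficients. -/

namespace Vale.Agent.Lib.P344

open Matrix
open scoped ComplexOrder

/-- The multiplicative growth of the volume potential at a gate. -/
noncomputable def Gate.factor : Gate → ℝ
  | .add _ _ => 2
  | .sub _ _ => 2
  | .smul c _ => max 1 ‖c‖

theorem Gate.one_le_factor (g : Gate) : 1 ≤ g.factor := by
  cases g <;> simp [Gate.factor]

theorem Gate.price_eq (g : Gate) : g.price = Real.logb 2 g.factor := by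
  cases g <;> simp [Gate.price, Gate.factor]

theorem one_le_prod_factor (gs : List Gate) : 1 ≤ (gs.map Gate.factor).prod := by
  induction gs with
  | nil => simp
  | cons g gs ih =>
    simp only [List.map_cons, List.prod_cons]
    have := g.one_le_factor
    nlinarith

variable {r : ℕ}

theorem potential_run (gs : List Gate) (k : ℕ) (σ : ℕ → Fin r → ℂ) (G : ℝ) (hG : 0 ≤ G)
    (H : ∀ f : Fin r → ℕ, ‖(rows σ f).det‖ ≤ G) (f : Fin r → ℕ) :
    ‖(rows (runV gs k σ) f).det‖ ≤ G * (gs.map Gate.factor).prod := by
  induction gs generalizing k σ G with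
  | nil =>
    simp only [runV, List.map_nil, List.prod_nil, mul_one]
    exact H f
  | cons g gs ih =>
    simp only [runV, List.map_cons, List.prod_cons]
    have hφ := g.one_le_factor
    have hG' : 0 ≤ g.factor * G := mul_nonneg (by linarith) hG
    have step : ∀ f : Fin r → ℕ,
        ‖(rows (Function.update σ k (g.valueV σ)) f).det‖ ≤ g.factor * G := by
      intro f
      have := potential_step σ (fun _ => 1) G (fun _ => zero_le_one) hG (by simpa using H) g k 1
        g.factor zero_le_one hφ
        (by
          intro u v h
          rcases h with h | h <;> subst h <;> simp [Gate.factor])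
        (by
          intro c u h
          subst h
          simp [Gate.factor])
        f
      have hw : ∀ i, (Function.update (fun _ : ℕ => (1 : ℝ)) k 1) i = 1 := by
        intro i
        by_cases h : i = k
        · subst h; simp
        · simp [Function.update_of_ne h]
      simpa [hw] using this
    have := ih (k + 1) _ _ hG' step
    calc _ ≤ g.factor * G * (gs.map Gate.factor).prod := this
      _ = G * (g.factor * (gs.map Gate.factor).prod) := by ring

/-- Replace the gates at the positions in `T` by the constant `0`. -/
def truncate (T : Finset ℕ) : ℕ → List Gate → List Gate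
  | _, [] => []
  | p, g :: gs => (if p ∈ T then Gate.smul 0 0 else g) :: truncate T (p + 1) gs

theorem runGates_of_lt (gs : List Gate) (k : ℕ) (σ : ℕ → ℂ) (i : ℕ) (h : i < k) :
    runGates gs k σ i = σ i := by
  rw [runGates_eq_runV, runV_of_lt _ _ _ _ h]

theorem run_truncate (T : Finset ℕ) (base : ℕ) (gs : List Gate) (p : ℕ) (σ : ℕ → ℂ)
    (h : ∀ q ∈ T, p ≤ q → runGates gs (base + p) σ (base + q) = 0) :
    runGates (truncate T p gs) (base + p) σ = runGates gs (base + p) σ := by
  induction gs generalizing p σ with
  | nil => rfl
  | cons g gs ih =>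
    simp only [truncate, runGates]
    by_cases hp : p ∈ T
    · have h0 := h p hp le_rfl
      simp only [runGates] at h0
      rw [runGates_of_lt _ _ _ _ (by omega), Function.update_self] at h0
      have hv : (Gate.smul 0 0).value σ = g.value σ := by
        rw [h0]; simp [Gate.value]
      simp only [hp, if_true]
      rw [hv]
      have := ih (p + 1) (Function.update σ (base + p) (g.value σ)) (by
        intro q hq hle
        have := h q hq (by omega)
        simp only [runGates] at this
        exact this)
      exact this
    · simp only [hp, if_false]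
      exact ih (p + 1) _ (by
        intro q hq hle
        have := h q hq (by omega)
        simp only [runGates] at this
        exact this)

theorem logb_prod_truncate (T : Finset ℕ) (p : ℕ) (gs : List Gate) :
    Real.logb 2 ((truncate T p gs).map Gate.factor).prod = cost T p gs := by
  induction gs generalizing p with
  | nil => simp [truncate, cost]
  | cons g gs ih =>
    simp only [truncate, cost, List.map_cons, List.prod_cons]
    have h1 : (if p ∈ T then Gate.smul 0 0 else g).factor ≠ 0 := by
      have := (if p ∈ T then Gate.smul 0 0 else g).one_le_factor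
      linarith
    have h2 : ((truncate T (p + 1) gs).map Gate.factor).prod ≠ 0 := by
      have := one_le_prod_factor (truncate T (p + 1) gs)
      linarith
    rw [Real.logb_mul h1 h2, ih]
    congr 1
    by_cases hp : p ∈ T
    · simp [hp, Gate.factor]
    · simp [hp, Gate.price_eq]

/-- The node values as linear forms. -/
noncomputable def σLin (n : ℕ) : ℕ → ((Fin n → ℂ) →ₗ[ℂ] ℂ) :=
  fun i => if h : i < n then LinearMap.proj ⟨i, h⟩ else 0

theorem value_eq_lin {n : ℕ} (C : Circuit n) (x : Fin n → ℂ) (i : ℕ) :
    C.value x i = runV C.gates (n + 1) (σLin n) i x := by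
  have h1 := runV_map (LinearMap.applyₗ x) C.gates (n + 1) (σLin n) i
  simp only [LinearMap.applyₗ_apply_apply] at h1
  rw [h1, Circuit.value, runGates_eq_runV]
  congr 1
  funext j
  unfold initState σLin
  split_ifs with h <;> simp

/-- The main inequality, in multiplicative form. -/
theorem tradeoff_product {n : ℕ} (C : Circuit n) (hC : C.Computes (dft n)) (T : Finset ℕ)
    (hT : T.card ≤ n) :
    (n : ℝ) ^ (n - T.card) ≤
      (n.choose (n - T.card) : ℝ) * (((truncate T 0 C.gates).map Gate.factor).prod) ^ 2 := by
  classical
  set r := n - T.card with hr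
  have hrn : r ≤ n := Nat.sub_le _ _
  have hPr1 := one_le_prod_factor (truncate T 0 C.gates)
  set Pr := ((truncate T 0 C.gates).map Gate.factor).prod with hPr
  rcases Nat.eq_zero_or_pos r with hr0 | hrpos
  · rw [hr0]
    simp only [pow_zero, Nat.choose_zero_right, Nat.cast_one, one_mul]
    nlinarith
  have hn : 0 < n := by omega
  -- the constraints
  let Lam : (Fin n → ℂ) →ₗ[ℂ] (T → ℂ) :=
    LinearMap.pi fun q => runV C.gates (n + 1) (σLin n) (n + 1 + q)
  have hLam : ∀ x, x ∈ LinearMap.ker Lam → ∀ q ∈ T, C.value x (n + 1 + q) = 0 := by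
    intro x hx q hq
    rw [value_eq_lin]
    have := congrFun (LinearMap.mem_ker.mp hx) ⟨q, hq⟩
    simpa [Lam] using this
  have hdim : r ≤ Module.finrank ℂ (LinearMap.ker Lam) := by
    have h1 := LinearMap.finrank_range_add_finrank_ker Lam
    have h2 : Module.finrank ℂ (LinearMap.range Lam) ≤ T.card := by
      calc Module.finrank ℂ (LinearMap.range Lam) ≤ Module.finrank ℂ (T → ℂ) :=
            Submodule.finrank_le _
        _ = T.card := by simp
    simp only [Module.finrank_fintype_fun_eq_card, Fintype.card_fin] at h1
    omega
  -- independent vectors in the kernel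
  let b := Module.finBasis ℂ (LinearMap.ker Lam)
  let v : Fin r → (Fin n → ℂ) := fun c => (b (Fin.castLE hdim c) : Fin n → ℂ)
  have hvK : ∀ c, v c ∈ LinearMap.ker Lam := fun c => (b (Fin.castLE hdim c)).2
  have hLI : LinearIndependent ℂ v := by
    have h1 : LinearIndependent ℂ (fun c : Fin r => b (Fin.castLE hdim c)) :=
      b.linearIndependent.comp _ (Fin.castLE_injective hdim)
    exact h1.map' (LinearMap.ker Lam).subtype (Submodule.ker_subtype _)
  let P : Matrix (Fin n) (Fin r) ℂ := Matrix.of fun i c => v c i
  have hdet : (Pᴴ * P).det ≠ 0 := by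
    intro h0
    obtain ⟨y, hy, hy0⟩ := Matrix.exists_mulVec_eq_zero_iff.mpr h0
    have h1 : P *ᵥ y = 0 := Matrix.conjTranspose_mul_self_mulVec_eq_zero _ _ |>.mp hy0
    have h2 : ∑ c, y c • v c = 0 := by
      funext i
      have := congrFun h1 i
      simp only [Matrix.mulVec, dotProduct, Pi.zero_apply] at this
      simp only [Finset.sum_apply, Pi.smul_apply, smul_eq_mul, Pi.zero_apply]
      rw [← this]
      apply Finset.sum_congr rfl
      intro c _
      simp [P, mul_comm]
    apply hy
    funext c
    exact Fintype.linearIndependent_iff.mp hLI y h2 c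
  -- the truncated circuit on the vector valued inputs
  let σ0 : ℕ → Fin r → ℂ := fun i => if h : i < n then P ⟨i, h⟩ else 0
  let gs' := truncate T 0 C.gates
  let Φ := runV gs' (n + 1) σ0
  have hΦ : ∀ i c, Φ i c = C.value (v c) i := by
    intro i c
    have h1 := runV_map (LinearMap.proj (R := ℂ) (φ := fun _ : Fin r => ℂ) c) gs' (n + 1) σ0 i
    simp only [LinearMap.proj_apply] at h1
    have h2 : (fun j => σ0 j c) = initState n (v c) := by
      funext j
      simp only [σ0, initState]
      split_ifs with h
      · simp [P]
      · simp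
    rw [h2, ← runGates_eq_runV] at h1
    have h3 := run_truncate T (n + 1) C.gates 0 (initState n (v c)) (by
      intro q hq _
      exact hLam _ (hvK c) q hq)
    simp only [Nat.add_zero] at h3
    show runV gs' (n + 1) σ0 i c = _
    rw [h1]
    show runGates (truncate T 0 C.gates) (n + 1) _ i = _
    rw [h3]
    rfl
  let Q : Matrix (Fin n) (Fin r) ℂ := dft n * P
  have hQrow : ∀ j c, Φ (C.out j) c = Q j c := by
    intro j c
    rw [hΦ, hC]
    simp only [Q, Matrix.mul_apply, Matrix.mulVec, dotProduct, P, Matrix.of_apply]
  have hQ : Qᴴ * Q = (n : ℂ) • (Pᴴ * P) := by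
    simp only [Q]
    rw [Matrix.conjTranspose_mul]
    calc Pᴴ * (dft n)ᴴ * (dft n * P) = Pᴴ * ((dft n)ᴴ * dft n) * P := by
          simp only [Matrix.mul_assoc]
      _ = (n : ℂ) • (Pᴴ * P) := by
          rw [conjTranspose_mul_dft hn]
          simp [Matrix.mul_smul, Matrix.smul_mul]
  refine volume_ineq hdet hQ Pr ?_
  intro D hD g
  have hD0 : 0 ≤ D := le_trans (norm_nonneg _) (hD (fun i => Fin.castLE hrn i))
  have hinit : ∀ f : Fin r → ℕ, ‖(rows σ0 f).det‖ ≤ D := by
    intro f
    by_cases hf : ∀ i, f i < n
    · have : rows σ0 f = P.submatrix (fun i => ⟨f i, hf i⟩) id := by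
        ext a c
        simp [rows, σ0, hf a]
      rw [this]
      exact hD _
    · simp only [not_forall, not_lt] at hf
      obtain ⟨i, hi⟩ := hf
      have : (rows σ0 f).det = 0 := by
        apply Matrix.det_eq_zero_of_row_eq_zero i
        intro c
        simp [rows, σ0, not_lt.mpr hi]
      rw [this, norm_zero]
      exact hD0
  have hpot := potential_run gs' (n + 1) σ0 D hD0 hinit (fun i => C.out (g i))
  have hsub : rows Φ (fun i => C.out (g i)) = Q.submatrix g id := by
    ext a c
    exact hQrow (g a) c
  rw [← hsub]
  exact hpot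

/-- The main inequality: for every set `T` of gate positions. -/
theorem tradeoff {n : ℕ} (C : Circuit n) (hC : C.Computes (dft n)) (T : Finset ℕ)
    (hT : T.card ≤ n) :
    ((n - T.card : ℕ) : ℝ) / 2 * Real.logb 2 n - 1 / 2 * Real.logb 2 (n.choose T.card) ≤
      cost T 0 C.gates := by
  have hmain := tradeoff_product C hC T hT
  rw [← logb_prod_truncate]
  set r := n - T.card with hr
  have hPr1 := one_le_prod_factor (truncate T 0 C.gates)
  set Pr := ((truncate T 0 C.gates).map Gate.factor).prod with hPr
  have hsymm : n.choose T.card = n.choose r := by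
    rw [hr, Nat.choose_symm hT]
  rw [hsymm]
  have hlogPr : 0 ≤ Real.logb 2 Pr := Real.logb_nonneg (by norm_num) hPr1
  rcases Nat.eq_zero_or_pos r with hr0 | hrpos
  · rw [hr0]
    simpa using hlogPr
  have hn : 0 < n := by omega
  have hn' : (0 : ℝ) < n := by exact_mod_cast hn
  have hch : (0 : ℝ) < (n.choose r : ℝ) := by
    exact_mod_cast Nat.choose_pos (by omega : r ≤ n)
  have hPr0 : Pr ≠ 0 := by linarith
  have h1 := Real.logb_le_logb_of_le (b := 2) (by norm_num) (by positivity) hmain
  rw [Real.logb_pow, Real.logb_mul hch.ne' (pow_ne_zero 2 hPr0), Real.logb_pow] at h1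
  push_cast at h1
  nlinarith

end Vale.Agent.Lib.P344
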